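import Vale.Agent.P272.K.EST.Assembly

/-! A priori estimates: the final theorem. -/

open scoped Manifold ContDiff ComplexOrder Topology
open Metric Filter

set_option linter.all false

noncomputable section

namespace Vale.Agent.P272.K.EST

open Vale.Agent.P272.K

variable {n : ℕ} {X : Type} [TopologicalSpace X] [ChartedSpace (Cm n) X]

lemma one_isHermitian : (1 : Matrix (Fin n) (Fin n) ℂ).IsHermitian := Matrix.isHermitian_one

lemma quad_one_nonneg (ξ : Cm n) : 0 ≤ (quad (1 : Matrix (Fin n) (Fin n) ℂ) ξ).re :=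
  quad_nonneg Matrix.PosSemidef.one ξ

/-- ellipticity constants of a solution in a compact piece of a chart -/
lemma exists_ellip {χ : Chart n X → Cm n → Matrix (Fin n) (Fin n) ℂ} (hχ : IsHermitian χ)
    {e : Chart n X} (he : e ∈ atlas (Cm n) X) {K : Set (Cm n)} (hK : IsCompact K)
    (hKe : K ⊆ e.target) {C : ℝ} (hC : 0 < C) :
    ∃ lam Lam : ℝ, 0 < lam ∧ ∀ u : X → ℝ, (∀ z ∈ e.target, (addH χ u e z).PosDef) →
      (∀ z ∈ e.target, ((C : ℂ) • addH χ u e z - χ e z).PosSemidef) →
      (∀ z ∈ e.target, ((C : ℂ) • χ e z - addH χ u e z).PosSemidef) →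
      ∀ z ∈ K, (addH χ u e z - (lam : ℂ) • (1 : Matrix (Fin n) (Fin n) ℂ)).PosSemidef ∧
        ((Lam : ℂ) • (1 : Matrix (Fin n) (Fin n) ℂ) - addH χ u e z).PosSemidef := by
  have hc : ∀ i j, ContinuousOn (fun z => χ e z i j) K := fun i j =>
    (hχ.continuousOn_entry he i j).mono hKe
  obtain ⟨C1, hC1, h1⟩ := exists_quad_lower hK (fun z => χ e z)
    (fun _ => (1 : Matrix (Fin n) (Fin n) ℂ)) hc (fun i j => continuousOn_const)
    (fun z hz => hχ.posDef_target he (hKe hz))
  obtain ⟨C2, hC2, h2⟩ := exists_quad_lower hK (fun _ => (1 : Matrix (Fin n) (Fin n) ℂ))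
    (fun z => χ e z) (fun i j => continuousOn_const) hc (fun z hz => Matrix.PosDef.one)
  refine ⟨1 / (C * C1), C * C2, by positivity, fun u hp hl hu z hz => ?_⟩
  have hKz := (hp z (hKe hz)).isHermitian
  have hχz := (hχ.posDef_target he (hKe hz)).isHermitian
  have a1 := quad_nonneg (hl z (hKe hz))
  have a2 := quad_nonneg (hu z (hKe hz))
  constructor
  · have : (addH χ u e z - ((1 / (C * C1) : ℝ) : ℂ) • (1 : Matrix (Fin n) (Fin n) ℂ)) =
        (((1 : ℝ) : ℂ) • addH χ u e z - ((1 / (C * C1) : ℝ) : ℂ) •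
          (1 : Matrix (Fin n) (Fin n) ℂ)) := by simp
    rw [this, posSemidef_smul_sub_iff hKz one_isHermitian]
    intro ξ
    have b1 := a1 ξ
    rw [quad_sub, quad_smulM, Complex.sub_re, Complex.re_ofReal_mul] at b1
    have b2 := h1 z hz ξ
    rw [one_mul, div_mul_eq_mul_div, one_mul, div_le_iff₀ (by positivity)]
    calc (quad 1 ξ).re ≤ C1 * (quad (χ e z) ξ).re := b2
      _ ≤ C1 * (C * (quad (addH χ u e z) ξ).re) := by
          refine mul_le_mul_of_nonneg_left ?_ hC1.le
          linarith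
      _ = _ := by ring
  · have : (((C * C2 : ℝ) : ℂ) • (1 : Matrix (Fin n) (Fin n) ℂ) - addH χ u e z) =
        (((C * C2 : ℝ) : ℂ) • (1 : Matrix (Fin n) (Fin n) ℂ) - ((1 : ℝ) : ℂ) • addH χ u e z) := by
      simp
    rw [this, posSemidef_smul_sub_iff one_isHermitian hKz]
    intro ξ
    have b1 := a2 ξ
    rw [quad_sub, quad_smulM, Complex.sub_re, Complex.re_ofReal_mul] at b1
    have b2 := h2 z hz ξ
    rw [one_mul]
    calc (quad (addH χ u e z) ξ).re ≤ C * (quad (χ e z) ξ).re := by linarith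
      _ ≤ C * (C2 * (quad 1 ξ).re) := mul_le_mul_of_nonneg_left b2 hC.le
      _ = _ := by ring

/-- a bound for the twisting term and its first derivatives -/
lemma exists_Th_bound {χ : Chart n X → Cm n → Matrix (Fin n) (Fin n) ℂ} (hχ : IsHermitian χ)
    {F : X → ℝ} (hF : SmoothFn (n := n) F) {e : Chart n X} (he : e ∈ atlas (Cm n) X)
    {K : Set (Cm n)} (hK : IsCompact K) (hKe : K ⊆ e.target) :
    ∃ C₀ : ℝ, 0 ≤ C₀ ∧ ∀ s ∈ Set.Icc (0 : ℝ) 1,
      (∀ z ∈ K, ∀ i j, ContDiffAt ℝ ∞ (fun y => Th χ F s e y i j) z) ∧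
      (∀ z ∈ K, ∀ i j, ‖Th χ F s e z i j‖ ≤ C₀) ∧
      (∀ z ∈ K, ∀ i j k, ‖dz k (fun y => Th χ F s e y i j) z‖ ≤ C₀) := by
  have s0 : ∀ z ∈ e.target, ∀ i j, ContDiffAt ℝ ∞
      (fun y => cHess (fun y => Real.log (χ e y).det.re) y i j - χ e y i j) z := fun z hz i j =>
    (smooth_cHess (smooth_logdet hχ he hz) i j).sub (hχ.smooth_target he hz i j)
  have s1 : ∀ z ∈ e.target, ∀ i j, ContDiffAt ℝ ∞
      (fun y => cHess (fun y => F (e.symm y)) y i j) z := fun z hz i j =>
    smooth_cHess (smoothFn_target hF he hz) i j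
  obtain ⟨A0, hA0, hA⟩ := exists_common_bound hK
    (fun (p : Fin n × Fin n) z => cHess (fun y => Real.log (χ e y).det.re) z p.1 p.2 - χ e z p.1 p.2)
    (fun p z hz => (s0 z (hKe hz) p.1 p.2).continuousAt.continuousWithinAt)
  obtain ⟨B0, hB0, hB⟩ := exists_common_bound hK
    (fun (p : Fin n × Fin n) z => cHess (fun y => F (e.symm y)) z p.1 p.2)
    (fun p z hz => (s1 z (hKe hz) p.1 p.2).continuousAt.continuousWithinAt)
  obtain ⟨A1, hA1, hA'⟩ := exists_common_bound hK
    (fun (p : (Fin n × Fin n) × Fin n) z =>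
      dz p.2 (fun y => cHess (fun y => Real.log (χ e y).det.re) y p.1.1 p.1.2 - χ e y p.1.1 p.1.2) z)
    (fun p z hz => (smooth_dz (s0 z (hKe hz) p.1.1 p.1.2) p.2).continuousAt.continuousWithinAt)
  obtain ⟨B1, hB1, hB'⟩ := exists_common_bound hK
    (fun (p : (Fin n × Fin n) × Fin n) z =>
      dz p.2 (fun y => cHess (fun y => F (e.symm y)) y p.1.1 p.1.2) z)
    (fun p z hz => (smooth_dz (s1 z (hKe hz) p.1.1 p.1.2) p.2).continuousAt.continuousWithinAt)
  have hent : ∀ s i j y, Th χ F s e y i j =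
      (cHess (fun y => Real.log (χ e y).det.re) y i j - χ e y i j) +
        (s : ℂ) * cHess (fun y => F (e.symm y)) y i j := by
    intro s i j y
    simp only [Th, Matrix.add_apply, Matrix.sub_apply, Matrix.smul_apply, smul_eq_mul]
  refine ⟨(A0 + B0) + (A1 + B1), by positivity, fun s hs => ⟨?_, ?_, ?_⟩⟩
  · intro z hz i j
    simp only [hent]
    exact (s0 z (hKe hz) i j).add (contDiffAt_const.mul (s1 z (hKe hz) i j))
  · intro z hz i j
    rw [hent]
    have h1 := hA (i, j) z hz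
    have h2 := hB (i, j) z hz
    simp only at h1 h2
    have h3 : ‖(s : ℂ) * cHess (fun y => F (e.symm y)) z i j‖ ≤ B0 := by
      rw [norm_mul, Complex.norm_real, Real.norm_eq_abs, abs_of_nonneg hs.1]
      calc s * _ ≤ 1 * ‖cHess (fun y => F (e.symm y)) z i j‖ :=
            mul_le_mul_of_nonneg_right hs.2 (norm_nonneg _)
        _ ≤ B0 := by rw [one_mul]; exact h2
    exact (norm_add_le _ _).trans (by linarith)
  · intro z hz i j k
    simp only [hent]
    have e1 : DifferentiableAt ℝ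
        (fun y => (s : ℂ) * cHess (fun y => F (e.symm y)) y i j) z :=
      (diffble_of_smooth (s1 z (hKe hz) i j)).const_mul _
    have e2 := dz_add (i := k) (diffble_of_smooth (s0 z (hKe hz) i j)) e1
    have e3 := dz_const_mul (i := k) (s : ℂ) (diffble_of_smooth (s1 z (hKe hz) i j))
    rw [e2, e3]
    have h1 := hA' ((i, j), k) z hz
    have h2 := hB' ((i, j), k) z hz
    simp only at h1 h2
    have h3 : ‖(s : ℂ) * dz k (fun y => cHess (fun y => F (e.symm y)) y i j) z‖ ≤ B1 := by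
      rw [norm_mul, Complex.norm_real, Real.norm_eq_abs, abs_of_nonneg hs.1]
      calc s * _ ≤ 1 * ‖dz k (fun y => cHess (fun y => F (e.symm y)) y i j) z‖ :=
            mul_le_mul_of_nonneg_right hs.2 (norm_nonneg _)
        _ ≤ B1 := by rw [one_mul]; exact h2
    exact (norm_add_le _ _).trans (by linarith)

/-- **Assembly of the a priori estimates.** -/
theorem est [CompactSpace X] (hC2 : C2Statement n X) (hC3 : C3.CalabiStatement)
    (hIE : IEStatement) : EstStatement n X := by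
  intro χ hχ F hF β hβ0 hβ1
  obtain ⟨MF, hMF⟩ := exists_bound_of_smoothFn hF
  obtain ⟨C, hC0, hC⟩ := hC2 χ hχ F hF MF
  have hC' : ∀ s ∈ Set.Icc (0 : ℝ) 1, ∀ u : X → ℝ, IsSol (n := n) χ F s u →
      ∀ e x, At e x → ((C : ℂ) • addH χ u e (e x) - χ e (e x)).PosSemidef ∧
        ((C : ℂ) • χ e (e x) - addH χ u e (e x)).PosSemidef := fun s hs u hu =>
    hC s hs u hu.smooth (hu.abs_le hχ hMF hs) hu.pos hu.eq
  refine ⟨⟨1 / C, by positivity, fun s hs u hu e x hx => ?_⟩, ?_⟩
  · have h1 := quad_nonneg (hC' s hs u hu e x hx).1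
    have h2 : (addH χ u e (e x) - ((1 / C : ℝ) : ℂ) • χ e (e x)) =
        (((1 : ℝ) : ℂ) • addH χ u e (e x) - ((1 / C : ℝ) : ℂ) • χ e (e x)) := by simp
    rw [h2, posSemidef_smul_sub_iff (hu.pos e x hx).isHermitian (hχ.posDef e x hx).isHermitian]
    intro ξ
    have h3 := h1 ξ
    rw [quad_sub, quad_smulM, Complex.sub_re, Complex.re_ofReal_mul] at h3
    rw [div_mul_eq_mul_div, div_le_iff₀ hC0]
    linarith
  intro e he p R hball
  rcases lt_or_ge R 0 with hR | hR
  · refine ⟨0, fun s hs u hu y hy => ?_⟩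
    rw [closedBall_eq_empty.2 hR] at hy
    exact hy.elim
  obtain ⟨δ, hδ, hsub⟩ := (isCompact_closedBall p R).exists_cthickening_subset_open
    e.open_target hball
  rw [cthickening_closedBall hδ.le hR] at hsub
  -- radii `R < R1 < R2 < R3 = R + δ`
  have hK : IsCompact (closedBall p (δ + R)) := isCompact_closedBall _ _
  obtain ⟨lam, Lam, hlam, hell⟩ := exists_ellip hχ.toIsHermitian he hK hsub hC0
  obtain ⟨C₀, hC₀, hTh⟩ := exists_Th_bound hχ.toIsHermitian hF he hK hsub
  obtain ⟨C3, hC3'⟩ := hC3 n p (2 * δ / 3 + R) (δ + R) lam Lam C₀ (by positivity) (by linarith) hlam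
  -- bounds for the reference metric
  have hχs : ∀ z ∈ e.target, ∀ i j, ContDiffAt ℝ ∞ (fun y => χ e y i j) z := fun z hz i j =>
    hχ.toIsHermitian.smooth_target he hz i j
  obtain ⟨A0, hA0, hA⟩ := exists_common_bound hK
    (fun (p : Fin n × Fin n) z => χ e z p.1 p.2)
    (fun p z hz => (hχs z (hsub hz) p.1 p.2).continuousAt.continuousWithinAt)
  obtain ⟨A1, hA1, hA'⟩ := exists_common_bound hK
    (fun (p : (Fin n × Fin n) × Fin n) z => dz p.2 (fun y => χ e y p.1.1 p.1.2) z)
    (fun p z hz => (smooth_dz (hχs z (hsub hz) p.1.1 p.1.2) p.2).continuousAt.continuousWithinAt)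
  set M : ℝ := |MF| + (2 * |Lam| + A0) + (|C3| + A1) with hM
  obtain ⟨CI, hCI⟩ := hIE n p (δ / 3 + R) (2 * δ / 3 + R) β M (by positivity) (by linarith) hβ0 hβ1
  refine ⟨CI, fun s hs u hu y hy y' hy' => ?_⟩
  have hb3 : ball p (δ + R) ⊆ closedBall p (δ + R) := ball_subset_closedBall
  have hpos : ∀ z ∈ e.target, (addH χ u e z).PosDef := fun z hz => hu.pos_target he hz
  have hlo : ∀ z ∈ e.target, ((C : ℂ) • addH χ u e z - χ e z).PosSemidef := fun z hz => by
    have := (hC' s hs u hu e (e.symm z) (At.of_target he hz)).1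
    rwa [e.right_inv hz] at this
  have hup : ∀ z ∈ e.target, ((C : ℂ) • χ e z - addH χ u e z).PosSemidef := fun z hz => by
    have := (hC' s hs u hu e (e.symm z) (At.of_target he hz)).2
    rwa [e.right_inv hz] at this
  have hE := hell u hpos hlo hup
  obtain ⟨t1, t2, t3⟩ := hTh s hs
  have hcal := hC3' (fun z => addH χ u e z) (fun z => Th χ F s e z)
    (fun z hz i j => smooth_addH hχ.toIsHermitian hu.smooth he (hsub (hb3 hz)) i j)
    (fun z hz => (hpos z (hsub (hb3 hz))).isHermitian)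
    (fun z hz => (hE z (hb3 hz)).1) (fun z hz => (hE z (hb3 hz)).2)
    (fun z hz i j k => closed_addH hχ hu.smooth he (hsub (hb3 hz)) i j k)
    (fun z hz => hu.ricci hχ.toIsHermitian hF he (hsub (hb3 hz)))
    (fun z hz i j => t1 z (hb3 hz) i j) (fun z hz i j => t2 z (hb3 hz) i j)
    (fun z hz i j k => t3 z (hb3 hz) i j k)
  have hb2 : ball p (2 * δ / 3 + R) ⊆ closedBall p (2 * δ / 3 + R) := ball_subset_closedBall
  have hb23 : closedBall p (2 * δ / 3 + R) ⊆ closedBall p (δ + R) :=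
    closedBall_subset_closedBall (by linarith)
  have hUs : ∀ z ∈ e.target, ContDiffAt ℝ ∞ (fun y => u (e.symm y)) z := fun z hz =>
    smoothFn_target hu.smooth he hz
  have hdz : ∀ z ∈ ball p (2 * δ / 3 + R), ∀ i j k,
      ‖dz k (fun y => cHess (fun y => u (e.symm y)) y i j) z‖ ≤ M := by
    intro z hz i j k
    have hzt : z ∈ e.target := hsub (hb23 (hb2 hz))
    have h1 := hcal z (hb2 hz) i j k
    have h2 : dz k (fun y => addH χ u e y i j) z = dz k (fun y => χ e y i j) z +
        dz k (fun y => cHess (fun y => u (e.symm y)) y i j) z :=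
      dz_add (diffble_of_smooth (hχs z hzt i j)) (diffble_of_smooth (smooth_cHess (hUs z hzt) i j))
    have h3 := hA' ((i, j), k) z (hb23 (hb2 hz))
    simp only at h3
    have h4 : dz k (fun y => cHess (fun y => u (e.symm y)) y i j) z =
        dz k (fun y => addH χ u e y i j) z - dz k (fun y => χ e y i j) z := by rw [h2]; ring
    rw [h4]
    refine (norm_sub_le _ _).trans ?_
    have h5 := le_abs_self C3
    have h6 := abs_nonneg MF
    have h7 := abs_nonneg Lam
    rw [hM]
    linarith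
  refine hCI (fun z => u (e.symm z)) (fun z hz => hUs z (hsub (hb23 (hb2 hz)))) ?_ ?_ hdz ?_ y
    (closedBall_subset_closedBall (by linarith) hy) y'
    (closedBall_subset_closedBall (by linarith) hy')
  · intro z hz
    have h1 := hu.abs_le hχ hMF hs (e.symm z)
    have h2 := le_abs_self MF
    have h7 := abs_nonneg Lam
    have h8 := abs_nonneg C3
    rw [hM]
    linarith
  · intro z hz i j
    have h1 := entry_le (hpos z (hsub (hb23 (hb2 hz)))).posSemidef (hE z (hb23 (hb2 hz))).2 i j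
    have h3 := hA (i, j) z (hb23 (hb2 hz))
    simp only at h3
    have h4 : cHess (fun y => u (e.symm y)) z i j = addH χ u e z i j - χ e z i j := by
      simp only [addH, Matrix.add_apply]; ring
    rw [h4]
    refine (norm_sub_le _ _).trans ?_
    have h5 := le_abs_self Lam
    have h6 := abs_nonneg MF
    have h8 := abs_nonneg C3
    rw [hM]
    linarith
  · intro z hz i j k
    rw [dzb_cHess (hUs z (hsub (hb23 (hb2 hz)))) i j k, RCLike.norm_conj]
    exact hdz z hz j i k

end Vale.Agent.P272.K.EST
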