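import Vale.Agent.P272.K.Iface
import Vale.Agent.P272.K.C3.Iface

/-! A priori estimates for the continuity path of the Aubin-Yau equation: interface statements. -/

open scoped Manifold ContDiff ComplexOrder
open Metric

noncomputable section

namespace Vale.Agent.P272.K.EST

open Vale.Agent.P272.K

/-- `u` is a smooth solution, at the parameter `s`, of the path
`log (det (χ + i∂∂̄u) / det χ) = u + s F`. -/
structure IsSol {n : ℕ} {X : Type} [TopologicalSpace X] [ChartedSpace (Cm n) X]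
    (χ : Chart n X → Cm n → Matrix (Fin n) (Fin n) ℂ) (F : X → ℝ) (s : ℝ) (u : X → ℝ) : Prop where
  smooth : SmoothFn (n := n) u
  pos : ∀ e x, At e x → (addH χ u e (e x)).PosDef
  eq : ∀ e x, At e x →
    Real.log (addH χ u e (e x)).det.re - Real.log (χ e (e x)).det.re = u x + s * F x

/-- block C2: the `C²` (Laplacian) estimate -/
def C2Statement (n : ℕ) (X : Type) [TopologicalSpace X] [ChartedSpace (Cm n) X] : Prop :=
  ∀ (χ : Chart n X → Cm n → Matrix (Fin n) (Fin n) ℂ) (_ : IsKahler χ) (F : X → ℝ)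
    (_ : SmoothFn (n := n) F) (M₀ : ℝ), ∃ C : ℝ, 0 < C ∧
    ∀ s ∈ Set.Icc (0 : ℝ) 1, ∀ u : X → ℝ, SmoothFn (n := n) u → (∀ x, |u x| ≤ M₀) →
      (∀ e x, At e x → (addH χ u e (e x)).PosDef) →
      (∀ e x, At e x →
        Real.log (addH χ u e (e x)).det.re - Real.log (χ e (e x)).det.re = u x + s * F x) →
      ∀ e x, At e x → ((C : ℂ) • addH χ u e (e x) - χ e (e x)).PosSemidef ∧
        ((C : ℂ) • χ e (e x) - addH χ u e (e x)).PosSemidef

/-- block IE: the local interior `C^{2,β}` estimate from bounds of the complex Hessian and of its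
first derivatives -/
def IEStatement : Prop :=
  ∀ (n : ℕ) (p : Cm n) (r R β M : ℝ), 0 < r → r < R → 0 < β → β < 1 → ∃ C : ℝ,
    ∀ u : Cm n → ℝ, (∀ z ∈ ball p R, ContDiffAt ℝ ∞ u z) → (∀ z ∈ ball p R, |u z| ≤ M) →
      (∀ z ∈ ball p R, ∀ i j, ‖cHess u z i j‖ ≤ M) →
      (∀ z ∈ ball p R, ∀ i j k, ‖dz k (fun y => cHess u y i j) z‖ ≤ M) →
      (∀ z ∈ ball p R, ∀ i j k, ‖dzb k (fun y => cHess u y i j) z‖ ≤ M) →
      ∀ y ∈ closedBall p r, ∀ y' ∈ closedBall p r,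
        ‖fderiv ℝ (fderiv ℝ u) y - fderiv ℝ (fderiv ℝ u) y'‖ ≤ C * ‖y - y'‖ ^ β

/-- block EST: what the continuity method consumes -/
def EstStatement (n : ℕ) (X : Type) [TopologicalSpace X] [ChartedSpace (Cm n) X] : Prop :=
  ∀ (χ : Chart n X → Cm n → Matrix (Fin n) (Fin n) ℂ) (_ : IsKahler χ) (F : X → ℝ)
    (_ : SmoothFn (n := n) F) (β : ℝ) (_ : 0 < β) (_ : β < 1),
    (∃ c : ℝ, 0 < c ∧ ∀ s ∈ Set.Icc (0 : ℝ) 1, ∀ u : X → ℝ, IsSol (n := n) χ F s u →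
      ∀ e x, At e x → (addH χ u e (e x) - (c : ℂ) • χ e (e x)).PosSemidef) ∧
    ∀ e ∈ atlas (Cm n) X, ∀ (p : Cm n) (R : ℝ), closedBall p R ⊆ e.target → ∃ M : ℝ,
      ∀ s ∈ Set.Icc (0 : ℝ) 1, ∀ u : X → ℝ, IsSol (n := n) χ F s u →
        ∀ y ∈ closedBall p R, ∀ y' ∈ closedBall p R,
          ‖fderiv ℝ (fderiv ℝ fun z => u (e.symm z)) y -
            fderiv ℝ (fderiv ℝ fun z => u (e.symm z)) y'‖ ≤ M * ‖y - y'‖ ^ β

end Vale.Agent.P272.K.EST
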