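import Vale.Agent.P272.K.EST.Local
import Vale.Agent.P272.K.N.Compare
import Mathlib.Analysis.Normed.Module.Convex

/-! A priori estimates: assembly of the `C⁰`, `C²`, `C³` and interior estimates. -/

open scoped Manifold ContDiff ComplexOrder Topology
open Metric Filter

set_option linter.all false

noncomputable section

namespace Vale.Agent.P272.K.EST

open Vale.Agent.P272.K

variable {n : ℕ} {X : Type} [TopologicalSpace X] [ChartedSpace (Cm n) X]

lemma IsSol.abs_le [CompactSpace X] {χ : Chart n X → Cm n → Matrix (Fin n) (Fin n) ℂ}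
    (hχ : IsKahler χ) {F u : X → ℝ} {s M : ℝ} (hM : ∀ x, |F x| ≤ M)
    (hs : s ∈ Set.Icc (0 : ℝ) 1) (h : IsSol (n := n) χ F s u) (x : X) : |u x| ≤ M := by
  refine N.abs_le_of_solution (f := fun x => s * F x) hχ.posDef (SmoothFn.c2Fn h.smooth) h.pos h.eq
    (fun y => ?_) x
  rw [abs_mul, abs_of_nonneg hs.1]
  calc s * |F y| ≤ 1 * |F y| := mul_le_mul_of_nonneg_right hs.2 (abs_nonneg _)
    _ ≤ M := by rw [one_mul]; exact hM y

lemma exists_bound_of_smoothFn [CompactSpace X] {F : X → ℝ} (hF : SmoothFn (n := n) F) :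
    ∃ M, ∀ x, |F x| ≤ M := by
  have hc : Continuous F := N.C2Fn.continuous (SmoothFn.c2Fn hF)
  obtain ⟨M, hM⟩ := isCompact_univ.exists_bound_of_continuousOn hc.continuousOn
  exact ⟨M, fun x => by simpa using hM x (Set.mem_univ x)⟩

lemma smoothFn_target {F : X → ℝ} (hF : SmoothFn (n := n) F) {e : Chart n X}
    (he : e ∈ atlas (Cm n) X) {z : Cm n} (hz : z ∈ e.target) :
    ContDiffAt ℝ ∞ (fun y => F (e.symm y)) z := by
  have := hF e (e.symm z) (At.of_target he hz)
  rwa [e.right_inv hz] at this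

/-- the equation, in a chart -/
lemma IsSol.eq_target {χ : Chart n X → Cm n → Matrix (Fin n) (Fin n) ℂ} {F u : X → ℝ} {s : ℝ}
    (h : IsSol (n := n) χ F s u) {e : Chart n X} (he : e ∈ atlas (Cm n) X) {z : Cm n}
    (hz : z ∈ e.target) : Real.log (addH χ u e z).det.re =
      Real.log (χ e z).det.re + (u (e.symm z) + s * F (e.symm z)) := by
  have := h.eq e (e.symm z) (At.of_target he hz)
  rw [e.right_inv hz] at this
  linarith

lemma IsSol.pos_target {χ : Chart n X → Cm n → Matrix (Fin n) (Fin n) ℂ} {F u : X → ℝ} {s : ℝ}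
    (h : IsSol (n := n) χ F s u) {e : Chart n X} (he : e ∈ atlas (Cm n) X) {z : Cm n}
    (hz : z ∈ e.target) : (addH χ u e z).PosDef := by
  have := h.pos e (e.symm z) (At.of_target he hz)
  rwa [e.right_inv hz] at this

lemma smooth_logdet {χ : Chart n X → Cm n → Matrix (Fin n) (Fin n) ℂ} (hχ : IsHermitian χ)
    {e : Chart n X} (he : e ∈ atlas (Cm n) X) {z : Cm n} (hz : z ∈ e.target) :
    ContDiffAt ℝ ∞ (fun y => Real.log (χ e y).det.re) z := by
  have h1 : ContDiffAt ℝ ∞ (fun y => (χ e y).det.re) z :=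
    contDiffAt_re (contDiffAt_det fun i j => hχ.smooth_target he hz i j)
  have h2 : 0 < (χ e z).det.re := (Complex.pos_iff.1 (hχ.posDef_target he hz).det_pos).1
  exact h1.log h2.ne'

/-- the twisting term in the Ricci equation of a solution -/
def Th (χ : Chart n X → Cm n → Matrix (Fin n) (Fin n) ℂ) (F : X → ℝ) (s : ℝ) (e : Chart n X)
    (z : Cm n) : Matrix (Fin n) (Fin n) ℂ :=
  (cHess (fun y => Real.log (χ e y).det.re) z - χ e z) + (s : ℂ) • cHess (fun y => F (e.symm y)) z

lemma IsSol.ricci {χ : Chart n X → Cm n → Matrix (Fin n) (Fin n) ℂ} (hχ : IsHermitian χ)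
    {F u : X → ℝ} (hF : SmoothFn (n := n) F) {s : ℝ}
    (h : IsSol (n := n) χ F s u) {e : Chart n X} (he : e ∈ atlas (Cm n) X) {z : Cm n}
    (hz : z ∈ e.target) : cHess (fun y => Real.log (addH χ u e y).det.re) z =
      addH χ u e z + Th χ F s e z := by
  have h1 : (fun y => Real.log (addH χ u e y).det.re) =ᶠ[𝓝 z] fun y =>
      Real.log (χ e y).det.re + (u (e.symm y) + s * F (e.symm y)) := by
    filter_upwards [e.open_target.mem_nhds hz] with y hy using h.eq_target he hy
  have c2 : ∀ {f : Cm n → ℝ}, ContDiffAt ℝ ∞ f z → ContDiffAt ℝ 2 f z := fun hf =>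
    hf.of_le (by norm_cast)
  have hL := smooth_logdet hχ he hz
  have hU := smoothFn_target h.smooth he hz
  have hf := smoothFn_target hF he hz
  rw [cHess_congr h1, cHess_add (c2 hL) ((c2 hU).add (contDiffAt_const.mul (c2 hf))),
    cHess_add (c2 hU) (contDiffAt_const.mul (c2 hf)), cHess_const_mul s (c2 hf)]
  unfold Th addH
  abel

lemma smooth_addH {χ : Chart n X → Cm n → Matrix (Fin n) (Fin n) ℂ} (hχ : IsHermitian χ)
    {u : X → ℝ} (hu : SmoothFn (n := n) u) {e : Chart n X} (he : e ∈ atlas (Cm n) X) {z : Cm n}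
    (hz : z ∈ e.target) (i j : Fin n) : ContDiffAt ℝ ∞ (fun y => addH χ u e y i j) z :=
  (hχ.smooth_target he hz i j).add (smooth_cHess (smoothFn_target hu he hz) i j)

lemma closed_addH {χ : Chart n X → Cm n → Matrix (Fin n) (Fin n) ℂ} (hχ : IsKahler χ)
    {u : X → ℝ} (hu : SmoothFn (n := n) u) {e : Chart n X} (he : e ∈ atlas (Cm n) X) {z : Cm n}
    (hz : z ∈ e.target) (i j k : Fin n) : dz k (fun y => addH χ u e y i j) z =
      dz i (fun y => addH χ u e y k j) z := by
  have hU := smoothFn_target hu he hz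
  have h1 : ∀ i j k, dz k (fun y => addH χ u e y i j) z =
      dz k (fun y => χ e y i j) z + dz k (fun y => cHess (fun y => u (e.symm y)) y i j) z := by
    intro i j k
    exact dz_add (diffble_of_smooth (hχ.toIsHermitian.smooth_target he hz i j))
      (diffble_of_smooth (smooth_cHess hU i j))
  have h2 := hχ.closed e (e.symm z) (At.of_target he hz) i j k
  rw [e.right_inv hz] at h2
  rw [h1, h1, h2, cHess_closed hU]

end Vale.Agent.P272.K.EST
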