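import Vale.Agent.P272.K.EST.Stmt
import Vale.Agent.P272.K.Asm.Weak

/-! A priori estimates: elementary facts about Hermitian matrices and compactness. -/

open scoped Manifold ContDiff ComplexOrder Topology
open Metric Filter

set_option linter.all false

noncomputable section

namespace Vale.Agent.P272.K.EST

open Vale.Agent.P272.K

variable {n : ℕ}

lemma quad_sub (A B : Matrix (Fin n) (Fin n) ℂ) (ξ : Cm n) :
    quad (A - B) ξ = quad A ξ - quad B ξ := by
  unfold quad
  rw [← Finset.sum_sub_distrib]
  refine Finset.sum_congr rfl fun i _ => ?_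
  rw [← Finset.sum_sub_distrib]
  refine Finset.sum_congr rfl fun j _ => ?_
  simp only [Matrix.sub_apply]; ring

lemma quad_smulM (c : ℝ) (A : Matrix (Fin n) (Fin n) ℂ) (ξ : Cm n) :
    quad ((c : ℂ) • A) ξ = (c : ℂ) * quad A ξ := by
  unfold quad
  rw [Finset.mul_sum]
  refine Finset.sum_congr rfl fun i _ => ?_
  rw [Finset.mul_sum]
  refine Finset.sum_congr rfl fun j _ => ?_
  simp only [Matrix.smul_apply, smul_eq_mul]; ring

lemma isHermitian_smul (c : ℝ) {A : Matrix (Fin n) (Fin n) ℂ} (h : A.IsHermitian) :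
    ((c : ℂ) • A).IsHermitian := by
  ext i j
  have h2 := h.apply i j
  simp only [RCLike.star_def] at h2
  simp only [Matrix.conjTranspose_apply, Matrix.smul_apply, smul_eq_mul, star_mul',
    RCLike.star_def, Complex.conj_ofReal]
  rw [h2]

lemma posSemidef_smul_sub_iff {a b : ℝ} {A B : Matrix (Fin n) (Fin n) ℂ} (hA : A.IsHermitian)
    (hB : B.IsHermitian) :
    ((a : ℂ) • A - (b : ℂ) • B).PosSemidef ↔ ∀ ξ, b * (quad B ξ).re ≤ a * (quad A ξ).re := by
  constructor
  · intro h ξ
    have := quad_nonneg h ξ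
    rw [quad_sub, quad_smulM, quad_smulM, Complex.sub_re, Complex.re_ofReal_mul,
      Complex.re_ofReal_mul] at this
    linarith
  · intro h
    refine posSemidef_of_quad ((isHermitian_smul a hA).sub (isHermitian_smul b hB)) fun ξ => ?_
    rw [quad_sub, quad_smulM, quad_smulM, Complex.sub_re, Complex.re_ofReal_mul,
      Complex.re_ofReal_mul]
    linarith [h ξ]

/-- entries of a positive semidefinite matrix bounded by `L` -/
lemma entry_le {K : Matrix (Fin n) (Fin n) ℂ} {L : ℝ} (h0 : K.PosSemidef)
    (h1 : ((L : ℂ) • (1 : Matrix (Fin n) (Fin n) ℂ) - K).PosSemidef) (i j : Fin n) :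
    ‖K i j‖ ≤ 2 * L := by
  have hH := h0.isHermitian
  -- the quadratic form of `K` at `x`
  have hdiag : ∀ i, 0 ≤ (K i i).re ∧ (K i i).re ≤ L := by
    intro i
    have h2 := h0.diag_nonneg (i := i)
    have h3 := h1.diag_nonneg (i := i)
    simp only [Matrix.sub_apply, Matrix.smul_apply, Matrix.one_apply_eq, smul_eq_mul, mul_one]
      at h3
    have h4 := (Complex.le_def.1 h2).1
    have h5 := (Complex.le_def.1 h3).1
    simp only [Complex.zero_re, Complex.sub_re, Complex.ofReal_re] at h4 h5
    exact ⟨h4, by linarith⟩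
  have hL : 0 ≤ L := (hdiag i).1.trans (hdiag i).2
  by_cases hij : i = j
  · subst hij
    have h6 : (K i i).im = 0 := by
      have := hH.apply i i
      have h7 := congrArg Complex.im this
      simp only [RCLike.star_def, Complex.conj_im] at h7
      linarith
    have h8 : K i i = ((K i i).re : ℂ) := by
      apply Complex.ext <;> simp [h6]
    rw [h8, Complex.norm_real, Real.norm_eq_abs, abs_of_nonneg (hdiag i).1]
    linarith [(hdiag i).2]
  · -- use the vectors `e_i + c e_j`
    have key : ∀ c : ℂ, ‖c‖ = 1 → 0 ≤ (K i i).re + (K j j).re + 2 * (c * K i j).re := by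
      intro c hc
      have h2 := h0.re_dotProduct_nonneg (Pi.single i 1 + Pi.single j c)
      have h3 : star (Pi.single i (1:ℂ) + Pi.single j c : Cm n) =
          Pi.single i 1 + Pi.single j ((starRingEnd ℂ) c) := by
        ext k
        simp only [Pi.star_apply, Pi.add_apply, star_add, RCLike.star_def]
        congr 1
        · by_cases h : k = i
          · subst h; simp
          · simp [Pi.single_eq_of_ne h]
        · by_cases h : k = j
          · subst h; simp
          · simp [Pi.single_eq_of_ne h]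
      rw [h3, Matrix.mulVec_add, dotProduct_add, add_dotProduct, add_dotProduct] at h2
      have e1 : ∀ (a b : Fin n) (x y : ℂ), (Pi.single a x : Cm n) ⬝ᵥ K.mulVec (Pi.single b y) =
          x * (K a b * y) := by
        intro a b x y
        rw [single_dotProduct, Matrix.mulVec_single]
        simp [mul_comm]
      rw [e1, e1, e1, e1] at h2
      have h4 : K j i = (starRingEnd ℂ) (K i j) := by
        have := hH.apply j i
        simpa using this.symm
      have h5 : (starRingEnd ℂ) c * (K j j * c) = K j j := by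
        have : (starRingEnd ℂ) c * c = 1 := by
          rw [mul_comm, Complex.mul_conj, Complex.normSq_eq_norm_sq, hc]; simp
        linear_combination K j j * this
      rw [h5, h4] at h2
      have h6 : (starRingEnd ℂ) c * ((starRingEnd ℂ) (K i j) * 1) = (starRingEnd ℂ) (c * K i j) := by
        simp
      rw [h6] at h2
      have h7 : RCLike.re (1 * (K i i * 1) + (starRingEnd ℂ) (c * K i j) +
          (1 * (K i j * c) + K j j)) = (K i i).re + (K j j).re + 2 * (c * K i j).re := by
        simp only [RCLike.re_eq_complex_re, Complex.add_re, Complex.conj_re, one_mul, mul_one]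
        rw [mul_comm (K i j) c]; ring
      rw [← h7]
      exact h2
    by_cases hK : K i j = 0
    · rw [hK]; simp; linarith
    · have hn : (‖K i j‖ : ℂ) ≠ 0 := by simpa using hK
      have h1c := key (-(starRingEnd ℂ) (K i j) / ‖K i j‖) (by
        rw [norm_div, norm_neg]; simp [hK])
      have h8 : -(starRingEnd ℂ) (K i j) / ‖K i j‖ * K i j = -(‖K i j‖ : ℂ) := by
        have h9 : (starRingEnd ℂ) (K i j) * K i j = (‖K i j‖ : ℂ) ^ 2 := by
          rw [mul_comm, Complex.mul_conj, Complex.normSq_eq_norm_sq]; simp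
        field_simp
        linear_combination -h9
      rw [h8] at h1c
      simp only [Complex.neg_re, Complex.ofReal_re] at h1c
      linarith [(hdiag i).2, (hdiag j).2]

/-- a finite family of continuous functions on a compact set has a common bound -/
lemma exists_common_bound {ι : Type*} [Finite ι] {V : Type*} [NormedAddCommGroup V] {K : Set (Cm n)}
    (hK : IsCompact K) (f : ι → Cm n → V) (hf : ∀ i, ContinuousOn (f i) K) :
    ∃ B : ℝ, 0 ≤ B ∧ ∀ i, ∀ z ∈ K, ‖f i z‖ ≤ B := by
  classical
  have := Fintype.ofFinite ι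
  have h1 : ∀ i, ∃ B : ℝ, ∀ z ∈ K, ‖f i z‖ ≤ B := fun i => hK.exists_bound_of_continuousOn (hf i)
  choose B hB using h1
  refine ⟨∑ i, |B i|, Finset.sum_nonneg fun i _ => abs_nonneg _, fun i z hz => ?_⟩
  exact ((hB i z hz).trans (le_abs_self _)).trans
    (Finset.single_le_sum (f := fun i => |B i|) (fun i _ => abs_nonneg _) (Finset.mem_univ i))

lemma smooth_cHess {f : Cm n → ℝ} {z : Cm n} (hf : ContDiffAt ℝ ∞ f z) (i j : Fin n) :
    ContDiffAt ℝ ∞ (fun y => cHess f y i j) z :=
  contDiffAt_cHess hf (le_of_eq rfl) i j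

lemma smooth_dz {f : Cm n → ℂ} {z : Cm n} (hf : ContDiffAt ℝ ∞ f z) (k : Fin n) :
    ContDiffAt ℝ ∞ (dz k f) z := contDiffAt_dz hf (le_of_eq rfl)

lemma smooth_dzb {f : Cm n → ℂ} {z : Cm n} (hf : ContDiffAt ℝ ∞ f z) (k : Fin n) :
    ContDiffAt ℝ ∞ (dzb k f) z := contDiffAt_dzb hf (le_of_eq rfl)

lemma diffble_of_smooth {f : Cm n → ℂ} {z : Cm n} (hf : ContDiffAt ℝ ∞ f z) :
    DifferentiableAt ℝ f z := hf.differentiableAt (by simp)

/-- `∂̄_k` of an entry of the complex Hessian is the conjugate of `∂_k` of the transposed entry -/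
lemma dzb_cHess {f : Cm n → ℝ} {z : Cm n} (hf : ContDiffAt ℝ ∞ f z) (i j k : Fin n) :
    dzb k (fun y => cHess f y i j) z = (starRingEnd ℂ) (dz k (fun y => cHess f y j i) z) := by
  have h1 : (fun y => cHess f y i j) =ᶠ[𝓝 z] fun y => cj (cHess f y j i) := by
    have h2 : ∀ᶠ y in 𝓝 z, ContDiffAt ℝ 2 f y :=
      ((hf.of_le (by norm_cast) : ContDiffAt ℝ 2 f z)).eventually (by simp)
    filter_upwards [h2] with y hy
    have := (cHess_isHermitian hy).apply i j
    simpa [cj] using this.symm
  rw [dzb_congr h1, dzb_cj (diffble_of_smooth (smooth_cHess hf j i))]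

end Vale.Agent.P272.K.EST
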